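import Vale.Agent.P287D.St

/-!
# P287D: surfaces in the language of b-divisors (statements)
-/

set_option linter.unusedVariables false

open Set

noncomputable section

namespace Vale.Agent.P287D.Sh

/-- a statement for all function fields of dimension two -/
def For2 (P : ∀ (K : Type) [Field K] [Algebra ℂ K], Prop) : Prop :=
  ∀ (K : Type) [Field K] [Algebra ℂ K], FF K 2 → P K

variable {K : Type} [Field K] [Algebra ℂ K]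

/-- `β = (β - N) + N` is a Zariski decomposition -/
structure ZS (β N : BD K) : Prop where
  car : N ∈ Car K
  nn : 0 ≤ N
  nef : Nef (β - N)
  orth : ∀ P, N P ≠ 0 → I2 P.δ (β - N) = 0
  nd : ∀ E ∈ Car K, (∀ P, E P ≠ 0 → N P ≠ 0) → E ≠ 0 → I2 E E < 0
  le : ∀ F ∈ Car K, 0 ≤ F → Nef (β - F) → N ≤ F
  fix : ∀ G, Rep β G → N ≤ G
  psef : ∀ γ, Nef γ → Psef (β - γ) → Psef (β - N - γ)
  rat : CarQ β → CarQ N
  des : ∀ Λ Γ, Term 1 Λ Γ → Dsc Λ β → Dsc Λ N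

/-- `V Λ' → V Λ` is a composition of blow ups of points; `e i` are the total transforms of the
exceptional curves `p i` -/
structure Bl (Λ Γ Λ' Γ' : BD K) {r : ℕ} (p : Fin r → Pl K) (e : Fin r → BD K) : Prop where
  inj : Function.Injective p
  exc : ∀ P, P ∈ range p ↔ On 1 Λ' P ∧ ¬ On 1 Λ P
  int : ∀ i, e i ∈ CarZ K
  des : ∀ i, Dsc Λ' (e i)
  nn : ∀ i, 0 ≤ e i
  off : ∀ i P, On 1 Λ P → e i P = 0
  one : ∀ i, e i (p i) = 1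
  tri : ∀ i j, i < j → e j (p i) = 0
  orth : ∀ i j, I2 (e i) (e j) = if i = j then -1 else 0
  can : Γ' = Γ + ∑ i, e i
  perp : ∀ β, Dsc Λ β → ∀ i, I2 (e i) β = 0
  push : ∀ β, Dsc Λ' β → Dsc Λ (β + ∑ i, I2 (e i) β • e i)

/-- **NAK**: numerically nef classes are nef -/
def NAK : Prop := For2 fun K _ _ => ∀ β ∈ Car K, (∀ P : Pl K, 0 ≤ I2 P.δ β) → Nef β

/-- **HI0**: the Hodge index theorem for classes of non negative square (the lemma of Zariski) -/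
def HI0 : Prop := For2 fun K _ _ => ∀ a ∈ Car K, ∀ b ∈ Car K, 0 ≤ I2 a a → ¬ Num a →
  I2 a b = 0 → I2 b b ≤ 0 ∧ (I2 b b = 0 → ∃ c : ℝ, c * I2 a a = 0 ∧ Num (b - c • a))

/-- **ND**: the curves orthogonal to a class of positive square are negative definite -/
def ND : Prop := For2 fun K _ _ => ∀ a ∈ Car K, ∀ E ∈ Car K, 0 < I2 a a →
  (∀ P, E P ≠ 0 → I2 P.δ a = 0) → E ≠ 0 → I2 E E < 0

/-- **NEG2**: negativity -/
def NEG2 : Prop := For2 fun K _ _ => ∀ a ∈ Car K, ∀ β ∈ Car K, 0 < I2 a a →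
  (∀ P, β P < 0 → I2 P.δ a = 0 ∧ I2 P.δ β ≤ 0) → 0 ≤ β

/-- **NUMD**: a perturbation of a nef and big class -/
def NUMD : Prop := For2 fun K _ _ => ∀ Λ : BD K, ∀ β ∈ Car K, Nef Λ → Big Λ →
  (∀ P : Pl K, I2 P.δ Λ = 0 → 0 ≤ I2 P.δ β) → ∃ ε : ℝ, 0 < ε ∧ Nef (Λ + ε • β)

/-- **ZARE**: the Zariski decomposition of effective classes -/
def ZARE : Prop := For2 fun K _ _ => ∀ β ∈ Car K, Eff β → ∃ N, ZS β N

/-- **ZARP**: the Zariski decomposition of pseudo-effective classes -/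
def ZARP : Prop := For2 fun K _ _ => ∀ β ∈ Car K, Psef β → ∃ N, ZS β N

/-- **QF2**: on a klt surface the classes that are trivial on the contracted curves descend -/
def QF2 : Prop := For2 fun K _ _ => ∀ Λ Γ : BD K, Smp Λ → Big Λ → Dsc Λ Γ → Bdy 1 Λ Γ →
  Klt 2 Γ → QF 1 Λ ∧ ∀ β ∈ Car K, (∀ P, ¬ On 1 Λ P → I2 P.δ β = 0) → Dsc Λ β

/-- **TS**: terminal surfaces are smooth -/
def TS : Prop := For2 fun K _ _ => ∀ Λ Γ : BD K, Term 1 Λ Γ → Γ ∈ CarZ K ∧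
  (∀ P, ¬ On 1 Λ P → 1 ≤ dsc 2 Γ P) ∧
  (∀ P, On 1 Λ P → ∃ C ∈ CarZ K, 0 ≤ C ∧ Hull 1 Λ P.δ C) ∧
  ∀ β, Dsc Λ β → (∀ P, On 1 Λ P → ∃ z : ℤ, β P = z) → β ∈ CarZ K

/-- **BL**: birational morphisms of smooth surfaces -/
def BL : Prop := For2 fun K _ _ => ∀ Λ Γ Λ' Γ' : BD K, Term 1 Λ Γ → Term 1 Λ' Γ' → Dsc Λ' Λ →
  ∃ (r : ℕ) (p : Fin r → Pl K) (e : Fin r → BD K), Bl Λ Γ Λ' Γ' p e

/-- **GEN2**: the genus formula on a smooth surface -/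
def GEN2 : Prop := For2 fun K _ _ => ∀ Λ Γ : BD K, Term 1 Λ Γ →
  (∀ P C, On 1 Λ P → Hull 1 Λ P.δ C →
    ∃ δ : ℕ, I2 (Γ + C) C = 2 * pg P.κ 1 - 2 + 2 * δ) ∧
  ∀ D ∈ CarZ K, ∃ z : ℤ, I2 (cn K 2 + D) D = 2 * z

/-- **RR2**: Riemann-Roch; `χ` is the holomorphic Euler characteristic -/
def RR2 : Prop := For2 fun K _ _ => ∃ χ : ℤ,
  (∀ D ∈ CarZ K, ∀ A, Nef A → I2 (cn K 2 - D) A < 0 → χ + I2 (D - cn K 2) D / 2 ≤ h0 D) ∧
  (∀ D ∈ CarZ K, Nef D → Big D → (h0 (cn K 2 + D) : ℝ) = χ + I2 (cn K 2 + D) D / 2) ∧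
  (FT K 1 → χ = 1)

end Vale.Agent.P287D.Sh
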