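import Vale.Agent.P287D.Sh.Rw

/-!
# P287D: terminal surfaces are smooth, birational morphisms of smooth surfaces
-/

set_option linter.unusedVariables false
set_option linter.unusedSectionVars false

open Set Function

noncomputable section

namespace Vale.Agent.P287D.Sh

open Sf

variable {L : Type} [Field L] [Algebra ℂ L] {Z β γ N Λ Γ Λ' Γ' C : BD L} {P Q E : Pl L}

/-- a change of the polarisation -/
def chg (m : Nm L) (hN : Nn N) (pos : 0 < I2 N N) (e : ∀ P, 0 < dg N P ↔ 0 < dg m.A P) : Nm L :=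
  have d : Sf.Det N m.A := fun P k => m.nn.zero_of fun c => ((e P).2 c).ne' k
  { A := N
    c := m.c
    k := m.k
    nn := hN
    pos := pos
    fin Z hZ := (m.fin Z hZ).subset fun P k => ⟨(e P).1 k.1, k.2⟩
    cZ P k := m.cZ P ((e P).1 k)
    c0 P k := m.c0 P ((e P).1 k)
    cδ P Q k l := m.cδ P Q ((e P).1 k) ((e Q).1 l)
    cd P k := d.trans (m.cd P ((e P).1 k))
    kZ := m.kZ
    ko P k := m.ko P ((e P).1 k)
    ke P k := m.ke P (d P k)
    kd := d.trans m.kd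
    gen P k := m.gen P ((e P).1 k) }

theorem not_on (hN : Nn N) : ¬ On 1 N P ↔ dg N P = 0 :=
  ⟨fun k => hN.zero_of fun c => k (on_iff.2 c), fun k c => (on_iff.1 c).ne' k⟩

variable (R : Rows L)
include R

/-- a relatively minimal model over a terminal surface is the surface -/
theorem min_eq (t : Term 1 Λ Γ) (m : Nm L) (d : Sf.Det m.A Λ)
    (k : ∀ P ∈ m.T Λ, 0 ≤ dg m.k P) : (∀ P, 0 < dg Λ P ↔ 0 < dg m.A P) ∧ m.k = Γ := by
  have n := R.nn_smp t.smp
  have pos := R.sq_pos n t.big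
  obtain ⟨hΓ, dΓ⟩ := R.det_dsc t.hull.1 n.car
  have le : m.k ≤ Γ := R.le_mum n pos m.kcar hΓ dΓ
    (fun P e => (m.k_le P).trans (t.hull.2 P (on_iff.2 e)).ge) fun P e => by
      rcases (m.nn.nn P).eq_or_lt with l | l
      · exact (m.kd P l.symm).ge
      · exact k P ⟨l, e⟩
  have e : ∀ P, 0 < dg Λ P ↔ 0 < dg m.A P := fun P => ⟨fun c => d.pos m.nn c.ne', fun c =>
    n.pos_of fun z => by
      have a := t.pos P ((not_on n).2 z)
      have b := le P
      rw [m.ko P c] at b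
      exact (sub_pos.1 a).not_ge b⟩
  exact ⟨e, det_ext R m.nn m.pos m.kcar hΓ m.kd (d.trans dΓ) fun P c =>
    (m.ko P c).trans (t.hull.2 P (on_iff.2 ((e P).2 c))).symm⟩

/-- **a terminal surface is a numerical smooth model** -/
theorem term_nm (t : Term 1 Λ Γ) : ∃ m : Nm L, m.A = Λ ∧ m.k = Γ := by
  have n := R.nn_smp t.smp
  obtain ⟨m, d, -, k, -⟩ := R.minres n t.big
  obtain ⟨e, h⟩ := min_eq R t m d fun P q => k P q.2
  exact ⟨chg m n (R.sq_pos n t.big) e, rfl, h⟩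

theorem hull_eq (m : Nm L) (h : 0 < dg m.A P) (hC : Hull 1 m.A P.δ C) : C = m.c P :=
  have ⟨a, b⟩ := R.det_dsc hC.1 m.nn.car
  det_ext R m.nn m.pos a (m.car h) b (m.cd P h) fun Q q =>
    (hC.2 Q (on_iff.2 q)).trans (m.cδ P Q h q).symm

theorem genus (hK : FF L 2) (m : Nm L) (h : 0 < dg m.A P) :
    ∃ δ : ℕ, dg (m.c P) P + dg m.k P = 2 * pg P.κ 1 - 2 + 2 * δ := by
  obtain ⟨z, hz⟩ := Sr.parity hK (m.cZ P h)
  rw [R.add_l R.cnb (R.isb _ (m.car h)) (m.car h), m.cn_c R h, m.I2_c h (m.cd P h),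
    add_comm] at hz
  have g := m.gen P h
  rw [hz] at g
  have g' : 2 * (pg P.κ 1 : ℤ) - 2 ≤ 2 * z := by exact_mod_cast g
  obtain ⟨δ, e⟩ := Int.eq_ofNat_of_zero_le (by omega : 0 ≤ z - pg P.κ 1 + 1)
  have e' : (z : ℝ) - pg P.κ 1 + 1 = δ := by exact_mod_cast e
  exact ⟨δ, by rw [hz, ← e']; ring⟩

theorem bl_zero (hK : FF L 2) (t : Term 1 Λ Γ) (m : Nm L) (d : Sf.Det m.A Λ)
    (k : ∀ P ∈ m.T Λ, 0 ≤ dg m.k P) : Bl Λ Γ m.A m.k (r := 0) ![] ![] := by
  obtain ⟨e, h⟩ := min_eq R t m d k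
  obtain ⟨m₀, rfl, -⟩ := term_nm R t
  refine ⟨fun i => i.elim0, fun P => ?_, fun i => i.elim0, fun i => i.elim0, fun i => i.elim0,
    fun i => i.elim0, fun i => i.elim0, fun i => i.elim0, fun i => i.elim0, by simp [h],
    fun _ _ i => i.elim0, fun β b => ?_⟩
  · simp [on_iff, e]
  · obtain ⟨a, c⟩ := R.det_dsc b m.nn.car
    simpa using nm_dsc hK R m₀ a fun P q => c P (m.nn.zero_of fun x => ((e P).2 x).ne' q)

theorem bl_succ (hK : FF L 2) (hΛ : Nn Λ) (m : Nm L) (h : m.Neg E) (d : Sf.Det m.A Λ)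
    (z : dg Λ E = 0) {r : ℕ} {p : Fin r → Pl L} {e : Fin r → BD L}
    (b : Bl Λ Γ (Nm.ctr R h).A (Nm.ctr R h).k p e) :
    Bl Λ Γ m.A m.k (Fin.snoc (α := fun _ => Pl L) p E)
      (Fin.snoc (α := fun _ => BD L) e (m.c E)) := by
  have o : ∀ P, On 1 (Nm.ctr R h).A P ↔ 0 < dg m.A P ∧ P ≠ E := fun P =>
    on_iff.trans (Nm.pos_iff R h)
  have op : ∀ i, 0 < dg m.A (p i) ∧ p i ≠ E := fun i => (o _).1 ((b.exc _).1 ⟨i, rfl⟩).1
  have dA : Sf.Det m.A (Nm.ctr R h).A := Nm.push_det R h m.nn.car (.refl _)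
  have zE : dg (Nm.ctr R h).A E = 0 := Nm.dg_push_self R h m.nn.car
  have ec : ∀ i, e i ∈ Car L := fun i => CarZ.car (b.int i)
  have ed : ∀ i, Sf.Det (Nm.ctr R h).A (e i) := fun i =>
    (R.det_dsc (b.des i) (Nm.ctr R h).nn.car).2
  have e1 : ∀ i, I2 (e i) (m.c E) = 0 := fun i => by
    rw [m.I2_c' R h.pos (ec i) (dA.trans (ed i)), ed i E zE]
  refine ⟨Fin.snoc_injective_of_injective b.inj fun ⟨i, x⟩ => (op i).2 x, fun P => ?a,
    Fin.lastCases ?b1 fun i => ?b2, Fin.lastCases ?c1 fun i => ?c2, Fin.lastCases ?d1 fun i => ?d2,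
    Fin.lastCases ?e1 fun i => ?e2, Fin.lastCases ?f1 fun i => ?f2,
    fun i => Fin.lastCases ?g1 fun j => ?g2, Fin.lastCases (Fin.lastCases ?h1 fun j => ?h2)
      fun i => Fin.lastCases ?h3 fun j => ?h4, ?i, fun β q => Fin.lastCases ?j1 fun i => ?j2,
    fun β q => ?k⟩
  all_goals try simp only [Fin.snoc_last, Fin.snoc_castSucc, Fin.sum_univ_castSucc]
  case a =>
    rw [Fin.range_snoc, mem_insert_iff, b.exc, o, on_iff (Λ := m.A)]
    refine ⟨?_, fun k => or_iff_not_imp_left.2 fun x => ⟨⟨k.1, x⟩, k.2⟩⟩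
    rintro (rfl | k)
    exacts [⟨h.pos, (not_on hΛ).2 z⟩, ⟨k.1.1, k.2⟩]
  case b1 => exact m.cZ E h.pos
  case b2 => exact b.int i
  case c1 => exact nm_dsc hK R m (m.car h.pos) (m.cd E h.pos)
  case c2 => exact nm_dsc hK R m (ec i) (dA.trans (ed i))
  case d1 => exact m.c0 E h.pos
  case d2 => exact b.nn i
  case e1 =>
    intro P k
    have k' := (on_iff.1 k).ne'
    rw [m.cδ E P h.pos (d.pos m.nn k'), Pl.δ_ne fun x : P = E => k' (x ▸ z)]
  case e2 => exact b.off i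
  case f1 => exact m.c_self h.pos
  case f2 => exact b.one i
  case g1 =>
    refine Fin.lastCases (fun x => (lt_irrefl _ x).elim) (fun i _ => ?_) i
    rw [Fin.snoc_castSucc, m.cδ E _ h.pos (op i).1, Pl.δ_ne (op i).2]
  case g2 =>
    refine Fin.lastCases (fun x => (x.not_ge (Fin.le_last _)).elim) (fun i x => ?_) i
    rw [Fin.snoc_castSucc]
    exact b.tri i j (Fin.castSucc_lt_castSucc_iff.1 x)
  case h1 => rw [m.I2_c h.pos (m.cd E h.pos), h.sq, if_pos trivial]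
  case h2 => rw [R.symm _ (m.car h.pos) _ (ec j), e1, if_neg (Fin.castSucc_lt_last j).ne']
  case h3 => rw [e1, if_neg (Fin.castSucc_lt_last i).ne]
  case h4 => simpa using b.orth i j
  case i =>
    have x : m.k + dg m.k E • m.c E = Γ + ∑ i, e i := b.can
    rw [← add_assoc, ← x, h.can]
    simp
  case j1 =>
    have x := (R.det_dsc q hΛ.car).2
    rw [m.I2_c h.pos (d.trans x), x E z]
  case j2 => exact b.perp β q i
  case k =>
    obtain ⟨a, c⟩ := R.det_dsc q m.nn.car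
    have x := b.push _ (nm_dsc hK R (Nm.ctr R h) (Nm.push_car R h a) (Nm.det_push R h a c))
    have y : ∀ i, I2 (e i) (m.push E β) = I2 (e i) β := fun i => by
      rw [Nm.push, R.add_r (R.isb _ (ec i)) a (Submodule.smul_mem _ _ (m.car h.pos)),
        R.smul_r _ (R.isb _ (ec i)) (m.car h.pos), e1, mul_zero, add_zero]
    simp only [y] at x
    rwa [m.I2_c h.pos c, ← add_assoc, add_right_comm]

theorem bl_nm (hK : FF L 2) (t : Term 1 Λ Γ) (m : Nm L) (d : Sf.Det m.A Λ) :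
    ∃ (r : ℕ) (p : Fin r → Pl L) (e : Fin r → BD L), Bl Λ Γ m.A m.k p e := by
  have n := R.nn_smp t.smp
  refine Nm.ind R n.car (R.sq_pos n t.big)
    (p := fun m => ∃ (r : ℕ) (p : Fin r → Pl L) (e : Fin r → BD L), Bl Λ Γ m.A m.k p e)
    (fun m d _ k => ⟨0, _, _, bl_zero R hK t m d k⟩)
    (fun m E h d z ⟨r, p, e, b⟩ => ⟨_, _, _, bl_succ R hK n m h d z b⟩) m d
    (m.tfin R n.car t.big)

omit R

theorem ts : TS := fun K _ _ hK Λ Γ t => by
  have R := rows hK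
  obtain ⟨m, rfl, rfl⟩ := term_nm R t
  refine ⟨m.kZ, fun P q => le_sub_iff_add_le'.2 (m.ke P ((not_on m.nn).1 q)), fun P q =>
    ⟨_, m.cZ P (on_iff.1 q), m.c0 P (on_iff.1 q), nm_hull hK R m (on_iff.1 q)⟩, fun β b h => ?_⟩
  obtain ⟨a, c⟩ := R.det_dsc b m.nn.car
  exact carZ_of R m a c fun P q => h P (on_iff.2 q)

theorem bl : BL := fun K _ _ hK Λ Γ Λ' Γ' t t' d => by
  have R := rows hK
  obtain ⟨m, rfl, rfl⟩ := term_nm R t'
  exact bl_nm R hK t m (R.det_dsc d m.nn.car).2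

theorem gen2 : GEN2 := fun K _ _ hK Λ Γ t => by
  have R := rows hK
  obtain ⟨m, rfl, rfl⟩ := term_nm R t
  refine ⟨fun P C q hC => ?_, fun D h => Sr.parity hK h⟩
  have o := on_iff.1 q
  rw [hull_eq R m o hC, R.add_l (R.isb _ m.kcar) (R.isb _ (m.car o)) (m.car o),
    m.I2_c' R o m.kcar m.kd, m.I2_c o (m.cd P o), add_comm]
  exact genus R hK m o

theorem nd' : ND := nd_row

theorem neg2' : NEG2 := neg2_row

theorem numd' : NUMD := numd_row

end Vale.Agent.P287D.Sh
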