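import Vale.Agent.P287D.Sh.Zar
import Vale.Agent.P287D.Pr.Bpf
import Vale.Agent.P287D.In.All
import Vale.Agent.P287D.In.Vol

/-!
# P287D: base point freeness and descent on klt surfaces
-/

set_option linter.unusedVariables false
set_option linter.unusedSectionVars false

open Set Function

noncomputable section

namespace Vale.Agent.P287D.Sh

open Sf

variable {L : Type} [Field L] [Algebra ℂ L] {Z β γ N Λ Γ : BD L} {P Q : Pl L}

theorem nef_of (hK : FF L 2) (h : Nn β) : Nef β :=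
  In.nef_two hK h.car fun P => (I2_δ P β).symm ▸ h.nn P

theorem vol_two (β : BD L) : vol 2 β = I2 β β := by
  have e : (fun _ : Fin 2 => β) = ![β, β] := by
    funext i
    fin_cases i <;> rfl
  rw [vol, e]

theorem big_of (hK : FF L 2) (h : Nn β) (k : 0 < I2 β β) : Big β :=
  (Ba.Vl.big_iff_vol hK (nef_of hK h)).2 ((vol_two β).symm ▸ k)

theorem big_A (hK : FF L 2) (m : Nm L) : Big m.A := big_of hK m.nn m.pos

variable (hK : FF L 2) (R : Rows L)
include hK R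

/-- **base point freeness**; the boundary is effective off the curves of degree zero for `Λ` -/
theorem smp_of (hΛ : Λ ∈ Car L) (pos : 0 < I2 Λ Λ) (hΓ : Γ ∈ Car L) (k : Klt 2 Γ)
    (b : ∀ P, dg Λ P ≠ 0 → dsc 2 Γ P ≤ 0) (p : Nef γ) (d : Sf.Det Λ γ) (h1 : Nef (γ - Γ))
    (h2 : Big (γ - Γ)) : Smp γ := by
  classical
  obtain ⟨s, κ, T, h, l, -, sκ, sB⟩ := exists_ls (n := 1) hK finite_empty (toFinite {Γ, γ, Λ})
    (by simp [hΓ, p.car, hΛ])
  have u := sκ.sub (sB Γ (by simp))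
  have dΛ := (R.det_dsc (sB Λ (by simp)).1 l.smp.car).2
  obtain ⟨E, dE, eE, E0⟩ : ∃ E, Dsc (mx s) E ∧ (∀ Q, On 1 (mx s) Q →
      E Q = if Q ∈ T then max 0 (dsc 2 Γ Q) else 0) ∧ 0 ≤ E :=
    ⟨_, (l.hull_sum fun P => max 0 (dsc 2 Γ P)).1, fun Q q => by
      rw [(l.hull_sum fun P => max 0 (dsc 2 Γ P)).2 Q q], Finset.sum_nonneg fun P q =>
        smul_nonneg (le_max_left _ _) (l.nn (l.on P q))⟩
  have nul : ∀ Q, E Q ≠ 0 → dg Λ Q = 0 := fun Q q => by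
    by_contra c
    rw [eE Q (on_iff.2 (dΛ.pos (R.nn_smp l.smp) c)), max_eq_left (b Q c), ite_self] at q
    exact q rfl
  have u' : Sup 1 (mx s) T (κ - (Γ + E)) := by
    rw [← sub_sub]
    exact u.sub ⟨dE, fun P o q => by rw [eE P o, if_neg q]⟩
  have k' : Klt 2 (Γ + E) := fun Q => by
    have := l.gt (Q := Q) u' le_rfl one_pos fun P q _ => by
      rw [Pr.dsc_add, eE P (l.on P q), if_pos q]
      have := k P
      rcases le_total 0 (dsc 2 Γ P) with c | c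
      · rw [max_eq_right c]; linarith
      · rw [max_eq_left c]; linarith
    linarith
  have b' : Bdy 1 (mx s) (Γ + E) := fun P o => by
    rw [Pr.dsc_add, eE P o]
    split_ifs with q
    · exact sub_nonpos.2 (le_max_right _ _)
    · have a1 := u.2 P o q
      have a2 := l.d0 o
      simp only [dsc, Pi.sub_apply] at a1 a2 ⊢
      linarith
  have e : γ + E - (Γ + E) = γ - Γ := add_sub_add_right_eq_sub _ _ _
  have dD := (sB γ (by simp)).1.add dE
  have ps := p.psef.add (Eff.of_nonneg E0).psef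
  obtain ⟨w, hw⟩ := id p
  have le := Pr.sig_le_of hK l.big dD (add_mem hΓ dE.car) k' b' (e ▸ h1) (e ▸ h2) ps (N := E)
    (mx_mem_Car w) fun ε h0 => by
      rw [add_right_comm]
      exact ⟨(hw ε h0).eff.add (.of_nonneg E0), (sig_add_nonneg (hw ε h0).eff E0).trans
        (by rw [(hw ε h0).sig_eq, zero_add])⟩
  have m := (Pr.zd_adj hK l.big dD (add_mem hΓ dE.car) k' b' (e ▸ h1) (e ▸ h2) ps).2.1
  rw [mob, add_sub_assoc] at m
  have s0 := sig_nonneg (γ + E)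
  generalize sig (γ + E) = S at le m s0
  have hF : E - S ∈ Car L := by simpa using sub_mem m.car p.car
  have nF : ∀ Q, (E - S) Q ≠ 0 → dg Λ Q = 0 := fun Q q => nul Q fun c => q (by
    have a1 := le Q
    have a2 := s0 Q
    rw [Pi.zero_apply] at a2
    rw [Pi.sub_apply]
    linarith)
  have a := (R.nn_smp m).I2_nonneg (Z := E - S) fun Q _ => sub_nonneg.2 (le Q)
  rw [R.add_r (R.isb _ hF) p.car hF, I2_zero fun Q q => d Q (nF Q q), zero_add] at a
  rwa [eq_zero_of R hΛ hF pos nF a, add_zero] at m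

/-- **descent**: the classes which are trivial on the contracted curves descend -/
theorem dsc_of (hΛ : Nn Λ) (bΛ : Big Λ) (hΓ : Γ ∈ Car L) (k : Klt 2 Γ)
    (b : ∀ P, 0 < dg Λ P → dsc 2 Γ P ≤ 0) (c : ∀ P, dg Λ P = 0 → dg Γ P ≤ 0) (hβ : β ∈ Car L)
    (d : Sf.Det Λ β) : Dsc Λ β := by
  obtain ⟨η, η0, hη⟩ := numd R hΛ bΛ (neg_mem hΓ) fun P q => by
    rw [R.neg hΓ]
    exact neg_nonneg.2 (c P q)
  have g := (nef_of hK (hη η η0.le le_rfl)).smul (inv_nonneg.2 η0.le)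
  have n := nef_of hK hΛ
  have c0 : 0 < η⁻¹ + 2 := by positivity
  have key : ∀ β ∈ Car L, Sf.Det Λ β → ∃ ε : ℝ, 0 < ε ∧ ∀ t, 0 ≤ t → t ≤ ε →
      Smp ((η⁻¹ + 2) • Λ + t • β) := fun β hβ d => by
    obtain ⟨ε, e0, he⟩ := numd R hΛ bΛ hβ fun P q => (d P q).ge
    refine ⟨ε, e0, fun t t0 t1 => ?_⟩
    have a := nef_of hK (he t t0 t1)
    have e1 : (η⁻¹ + 2) • Λ + t • β = (η⁻¹ + 1) • Λ + (Λ + t • β) := by module
    have e2 : (η⁻¹ + 2) • Λ + t • β - Γ = Λ + (η⁻¹ • (Λ + η • -Γ) + (Λ + t • β)) := by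
      rw [smul_add η⁻¹, inv_smul_smul₀ η0.ne']
      module
    exact smp_of hK R hΛ.car (R.sq_pos hΛ bΛ) hΓ k (fun P q => b P (hΛ.pos_of q))
      (e1 ▸ (n.smul (by positivity)).add a)
      (R.det_add (R.det_smul _ (.refl _) hΛ.car) (R.det_smul _ d hβ)
        (Submodule.smul_mem _ _ hΛ.car) (Submodule.smul_mem _ _ hβ))
      (e2 ▸ n.add (g.add a)) (e2 ▸ bΛ.add_nef (g.add a))
  obtain ⟨ε, e0, a⟩ := key β hβ d
  obtain ⟨ε', e1, a'⟩ := key (-β) (neg_mem hβ) fun P q => by rw [R.neg hβ, d P q, neg_zero]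
  have x : Dsc ((η⁻¹ + 2) • Λ) β := ⟨min ε ε', lt_min e0 e1,
    a _ (lt_min e0 e1).le (min_le_left _ _), by
      rw [sub_eq_add_neg, ← smul_neg]
      exact a' _ (lt_min e0 e1).le (min_le_right _ _)⟩
  simpa [inv_smul_smul₀ c0.ne'] using x.smul_left (inv_pos.2 c0)

omit hK in
/-- a rational retraction of a real class -/
theorem retract (φ : ℝ →ₗ[ℚ] ℚ) (hβ : β ∈ Car L) : CarQ (fun P => (φ (β P) : ℝ)) ∧
    ∀ P, dg (fun P => (φ (β P) : ℝ)) P = φ (dg β P) := by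
  obtain ⟨l, rfl⟩ := mem_Car.1 hβ
  have z : ∀ (x : Finset L → ℝ), (∀ s, ∃ z : ℤ, x s = z) →
      (φ (∑ s ∈ l.support, l s * x s) : ℝ) = ∑ s ∈ l.support, φ (l s) * x s := fun x hx => by
    rw [map_sum, Rat.cast_sum]
    refine Finset.sum_congr rfl fun s _ => ?_
    obtain ⟨z, hz⟩ := hx s
    rw [hz, mul_comm, ← zsmul_eq_mul, map_zsmul, zsmul_eq_mul, Rat.cast_mul, Rat.cast_intCast,
      mul_comm]
  have e : (fun P => (φ (cmb l P) : ℝ)) = ∑ s ∈ l.support, (φ (l s) : ℝ) • mx s := by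
    funext P
    rw [cmb_sum, Finset.sum_apply, Finset.sum_apply]
    exact z (fun s => mx s P) fun s => int_mx s P
  have w : ∀ (x : Finset L → ℝ) P, dg (∑ s ∈ l.support, x s • mx s) P =
      ∑ s ∈ l.support, x s * dg (mx s) P := fun x P => by
    rw [R.sum _ fun s _ => Submodule.smul_mem _ _ (mx_mem_Car s)]
    exact Finset.sum_congr rfl fun s _ => R.smul _ _ (mx_mem_Car s) P
  rw [e]
  refine ⟨CarQ.sum _ fun s _ => (carQ_mx s).qsmul _, fun P => ?_⟩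
  rw [w, cmb_sum, w]
  exact (z (fun s => dg (mx s) P) fun s => R.int _ (mx_mem_CarZ s) P).symm

omit hK in
/-- the Mumford pull back of a rational divisor is rational -/
theorem carQ_of (hΛ : Nn Λ) (pos : 0 < I2 Λ Λ) (hβ : β ∈ Car L) (d : Sf.Det Λ β)
    (h : ∀ P, 0 < dg Λ P → ∃ q : ℚ, β P = q) : CarQ β := by
  obtain ⟨φ, hφ⟩ := Module.Projective.exists_dual_eq_one ℚ (one_ne_zero (α := ℝ))
  obtain ⟨a, b⟩ := retract R φ hβ
  rw [det_ext R hΛ pos hβ a.car d (fun P q => by rw [b, d P q, map_zero, Rat.cast_zero])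
    fun P q => ?_]
  · exact a
  · obtain ⟨q, e⟩ := h P q
    rw [e, ← Rat.smul_one_eq_cast, map_smul, hφ, smul_eq_mul, mul_one, Rat.smul_one_eq_cast]

theorem qf_of (hΛ : Nn Λ) (bΛ : Big Λ) (hΓ : Γ ∈ Car L) (k : Klt 2 Γ)
    (b : ∀ P, 0 < dg Λ P → dsc 2 Γ P ≤ 0) (c : ∀ P, dg Λ P = 0 → dg Γ P ≤ 0) : QF 1 Λ :=
  fun P o => by
    obtain ⟨β, hβ, d, e⟩ := R.mum hΛ bΛ (isB_δ P)
    refine ⟨β, carQ_of R hΛ (R.sq_pos hΛ bΛ) hβ d fun Q q => ?_,
      dsc_of hK R hΛ bΛ hΓ k b c hβ d, fun Q q => e Q (on_iff.1 q)⟩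
    rw [e Q q]
    by_cases x : Q = P
    · exact ⟨1, by rw [x, Pl.δ_self, Rat.cast_one]⟩
    · exact ⟨0, by rw [Pl.δ_ne x, Rat.cast_zero]⟩

omit hK R in
theorem dsc_k (m : Nm L) (P : Pl L) : 0 ≤ dsc 2 m.k P := sub_nonneg.2 (m.k_le P)

/-- **numerical models are models** -/
theorem nm_dsc (m : Nm L) (hβ : β ∈ Car L) (d : Sf.Det m.A β) : Dsc m.A β :=
  dsc_of hK R m.nn (big_A hK m) m.kcar (fun P => neg_one_lt_zero.trans_le (dsc_k m P))
    (fun P q => (sub_eq_zero.2 (m.ko P q).symm).le) (fun P q => (m.kd P q).le) hβ d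

theorem nm_smp (m : Nm L) : Smp m.A := (nm_dsc hK R m m.nn.car (.refl _)).smp

theorem nm_hull (m : Nm L) (h : 0 < dg m.A P) : Hull 1 m.A P.δ (m.c P) :=
  ⟨nm_dsc hK R m (m.car h) (m.cd P h), fun Q q => m.cδ P Q h (on_iff.1 q)⟩

theorem nm_term (m : Nm L) : Term 1 m.A m.k where
  smp := nm_smp hK R m
  big := big_A hK m
  hull := ⟨nm_dsc hK R m m.kcar m.kd, fun P q => m.ko P (on_iff.1 q)⟩
  pos P q := by
    have := m.ke P (m.nn.zero_of fun c => q (on_iff.2 c))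
    simp only [dsc, Pi.sub_apply]
    linarith

/-- a class which is positive on all curves of a model and has positive square is ample -/
theorem amp_of (hΛ : Nn Λ) (bΛ : Big Λ) (hΓ : Γ ∈ Car L) (k : Klt 2 Γ)
    (b : ∀ P, 0 < dg Λ P → dsc 2 Γ P ≤ 0) (c : ∀ P, dg Λ P = 0 → dg Γ P ≤ 0) (hβ : β ∈ Car L)
    (d : Sf.Det Λ β) (h : ∀ P, 0 < dg Λ P → 0 < dg β P) (pos : 0 < I2 β β) : AmpOn Λ β := by
  have n : Nn β := ⟨hβ, fun P => (hΛ.nn P).eq_or_lt.elim (fun q => (d P q.symm).ge)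
    fun q => (h P q).le⟩
  have d' : Sf.Det β Λ := fun P q => hΛ.zero_of fun x => (h P x).ne' q
  exact .of_dsc (dsc_of hK R hΛ bΛ hΓ k b c hβ d) (dsc_of hK R n (big_of hK n pos) hΓ k
    (fun P q => b P (d.pos hΛ q.ne')) (fun P q => c P (d' P q)) hΛ.car d')

end Vale.Agent.P287D.Sh
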