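import Vale.Agent.P287D.Sf.Bas
import Vale.Agent.P287D.Sh.St

/-!
# P287D: surfaces, hulls on numerical models, negative definiteness, negativity
-/

set_option linter.unusedVariables false
set_option linter.unusedSectionVars false

open Set Function Filter Topology

noncomputable section

namespace Vale.Agent.P287D.Sh

open Sf

variable {L : Type} [Field L] [Algebra ℂ L] {Z Z' β γ N a b G Λ E : BD L} {P Q : Pl L}

open Classical in
/-- the pull back of the trace of `Z` on the model `m` -/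
def hl (m : Nm L) (Z : BD L) : BD L :=
  if h : {P | 0 < dg m.A P ∧ Z P ≠ 0}.Finite then ∑ P ∈ h.toFinset, Z P • m.c P else 0

theorem hl_eq (m : Nm L) (hZ : IsB 1 Z) {T : Finset (Pl L)} (h1 : ∀ P ∈ T, 0 < dg m.A P)
    (h2 : ∀ P, 0 < dg m.A P → Z P ≠ 0 → P ∈ T) : hl m Z = ∑ P ∈ T, Z P • m.c P := by
  rw [hl, dif_pos (m.fin Z hZ)]
  refine Finset.sum_subset (fun P h => ?_) fun P h k => ?_
  · rw [Finite.mem_toFinset] at h
    exact h2 P h.1 h.2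
  · rw [Finite.mem_toFinset] at k
    rw [not_not.1 fun e => k ⟨h1 P h, e⟩, zero_smul]

theorem hl_ex (m : Nm L) (hZ : IsB 1 Z) : ∃ T : Finset (Pl L),
    (∀ P, P ∈ T ↔ 0 < dg m.A P ∧ Z P ≠ 0) ∧ hl m Z = ∑ P ∈ T, Z P • m.c P :=
  ⟨(m.fin Z hZ).toFinset, fun _ => (m.fin Z hZ).mem_toFinset, by rw [hl, dif_pos (m.fin Z hZ)]⟩

theorem sum_c (m : Nm L) {T : Finset (Pl L)} (h1 : ∀ P ∈ T, 0 < dg m.A P) (x : Pl L → ℝ)
    (hQ : 0 < dg m.A Q) [Decidable (Q ∈ T)] :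
    (∑ P ∈ T, x P • m.c P) Q = if Q ∈ T then x Q else 0 := by
  rw [Finset.sum_apply]
  split_ifs with h
  · rw [Finset.sum_eq_single_of_mem Q h fun P hP e => by
      rw [Pi.smul_apply, m.cδ P Q (h1 P hP) hQ, Pl.δ_ne e.symm, smul_zero]]
    rw [Pi.smul_apply, m.cδ Q Q hQ hQ, Pl.δ_self, smul_eq_mul, mul_one]
  · exact Finset.sum_eq_zero fun P hP => by
      rw [Pi.smul_apply, m.cδ P Q (h1 P hP) hQ, Pl.δ_ne fun e : Q = P => h (e ▸ hP), smul_zero]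

theorem sum_c_car (m : Nm L) {T : Finset (Pl L)} (h1 : ∀ P ∈ T, 0 < dg m.A P) (x : Pl L → ℝ) :
    ∑ P ∈ T, x P • m.c P ∈ Car L :=
  sum_mem fun P h => Submodule.smul_mem _ _ (CarZ.car (m.cZ P (h1 P h)))

theorem hl_on (m : Nm L) (hZ : IsB 1 Z) (hP : 0 < dg m.A P) : hl m Z P = Z P := by
  classical
  obtain ⟨T, h, e⟩ := hl_ex m hZ
  rw [e, sum_c m (fun P k => ((h P).1 k).1) Z hP]
  split_ifs with k
  · rfl
  · exact (not_not.1 fun e => k ((h P).2 ⟨hP, e⟩)).symm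

theorem hl_car (m : Nm L) (hZ : IsB 1 Z) : hl m Z ∈ Car L := by
  obtain ⟨T, h, e⟩ := hl_ex m hZ
  exact e ▸ sum_c_car m (fun P k => ((h P).1 k).1) Z

theorem hl_nonneg (m : Nm L) (hZ : IsB 1 Z) (h0 : ∀ P, 0 < dg m.A P → 0 ≤ Z P) : 0 ≤ hl m Z := by
  obtain ⟨T, h, e⟩ := hl_ex m hZ
  exact e ▸ Finset.sum_nonneg fun P k => smul_nonneg (h0 P ((h P).1 k).1) (m.c0 P ((h P).1 k).1)

theorem hl_carZ (m : Nm L) (hZ : IsB 1 Z) (h0 : ∀ P, 0 < dg m.A P → ∃ z : ℤ, Z P = z) :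
    hl m Z ∈ CarZ L := by
  obtain ⟨T, h, e⟩ := hl_ex m hZ
  refine e ▸ sum_mem fun P k => ?_
  obtain ⟨z, hz⟩ := h0 P ((h P).1 k).1
  exact hz ▸ CarZ.zsmul (m.cZ P ((h P).1 k).1) z

theorem hl_carQ (m : Nm L) (hZ : IsB 1 Z) (h0 : ∀ P, 0 < dg m.A P → ∃ z : ℚ, Z P = z) :
    CarQ (hl m Z) := by
  obtain ⟨T, h, e⟩ := hl_ex m hZ
  refine e ▸ CarQ.sum T fun P k => ?_
  obtain ⟨z, hz⟩ := h0 P ((h P).1 k).1
  exact hz ▸ (CarZ.carQ (m.cZ P ((h P).1 k).1)).qsmul z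

theorem isB_max (h : IsB 1 Z) : IsB 1 fun P => max (Z P) 0 :=
  isB_of h fun P k e => k (by simp [e])

variable (R : Rows L)
include R

theorem dg_sum_c (m : Nm L) {T : Finset (Pl L)} (h1 : ∀ P ∈ T, 0 < dg m.A P) (x : Pl L → ℝ)
    (Q : Pl L) : dg (∑ P ∈ T, x P • m.c P) Q = ∑ P ∈ T, x P * dg (m.c P) Q := by
  rw [R.sum T fun P h => Submodule.smul_mem _ _ (CarZ.car (m.cZ P (h1 P h)))]
  exact Finset.sum_congr rfl fun P h => R.smul _ _ (CarZ.car (m.cZ P (h1 P h))) Q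

theorem det_sum_c (m : Nm L) {T : Finset (Pl L)} (h1 : ∀ P ∈ T, 0 < dg m.A P) (x : Pl L → ℝ) :
    Det m.A (∑ P ∈ T, x P • m.c P) := fun Q hQ => by
  rw [dg_sum_c R m h1]
  exact Finset.sum_eq_zero fun P h => by rw [m.cd P (h1 P h) Q hQ, mul_zero]

theorem hl_det (m : Nm L) (hZ : IsB 1 Z) : Det m.A (hl m Z) := by
  obtain ⟨T, h, e⟩ := hl_ex m hZ
  exact e ▸ det_sum_c R m (fun P k => ((h P).1 k).1) Z

theorem I2_hl (m : Nm L) (hZ : IsB 1 Z) (hd : Det m.A γ) : I2 (hl m Z) γ = I2 Z γ :=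
  I2_congr fun _ k => hl_on m hZ (hd.pos m.nn k)

theorem I2_c (m : Nm L) (hP : 0 < dg m.A P) (hd : Det m.A γ) : I2 (m.c P) γ = dg γ P := by
  rw [← I2_δ]
  exact I2_congr fun Q k => m.cδ P Q hP (hd.pos m.nn k)

/-- effective classes without common curves -/
theorem I2_disj (hb : b ∈ Car L) (h0 : 0 ≤ a) (h1 : 0 ≤ b)
    (h : ∀ P, dg b P ≠ 0 → a P ≠ 0 → b P = 0) : 0 ≤ I2 a b := I2_nonneg' fun P => by
  by_cases k : dg b P = 0
  · simp [k]
  by_cases k' : a P = 0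
  · simp [k']
  exact mul_nonneg (h0 P) (R.eff b hb h1 P (h P k k'))

theorem num_off (m : Nm L) (hβ : β ∈ Car L) (hd : Det m.A β) (h0 : ∀ P, 0 < dg m.A P → β P = 0)
    (hγ : γ ∈ Car L) : I2 β γ = 0 := by
  have k : ∀ P, β P ≠ 0 → dg m.A P = 0 := fun P e => m.nn.zero_of fun h => e (h0 P h)
  exact R.hi0 m.nn.car hβ m.pos (by rw [R.symm _ m.nn.car _ hβ]; exact I2_zero k)
    (I2_zero fun P e => hd P (k P e)).ge hγ

theorem zero_on (m : Nm L) (hZ : IsB 1 Z) (h0 : 0 ≤ Z) (h : I2 Z m.A ≤ 0) (hP : 0 < dg m.A P) :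
    Z P = 0 := by
  have := R.le_I2 hZ m.nn.car (fun Q => mul_nonneg (h0 Q) (m.nn.nn Q)) P
  exact le_antisymm (nonpos_of_mul_nonpos_left (this.trans h) hP) (h0 P)

/-- the curves orthogonal to a class of positive square are negative definite -/
theorem nd (ha : a ∈ Car L) (hE : E ∈ Car L) (h : 0 < I2 a a) (h0 : ∀ P, E P ≠ 0 → dg a P = 0)
    (ne : E ≠ 0) : I2 E E < 0 := by
  by_contra k
  have z : ∀ γ ∈ Car L, I2 E γ = 0 := fun γ hγ =>
    R.hi0 ha hE h (by rw [R.symm _ ha _ hE]; exact I2_zero h0) (not_lt.1 k) hγ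
  obtain ⟨P, hP⟩ := Function.ne_iff.1 ne
  obtain ⟨m, -, h1, h2⟩ := R.ex {P} {E, a} (finite_singleton P) (toFinite _)
    (by rintro _ (rfl | rfl) <;> assumption)
  have dE := h2 E (by simp)
  have da := h2 a (by simp)
  have key : ∀ E ∈ Car L, Det m.A E → (∀ P, E P ≠ 0 → dg a P = 0) → (∀ γ ∈ Car L, I2 E γ = 0) →
      E P ≤ 0 := fun E hE dE h0 z => by
    have i1 := isB_max (R.isb E hE)
    have i2 := isB_max (isB_neg (R.isb E hE))
    set p := hl m fun P => max (E P) 0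
    set q := hl m fun P => max ((-E) P) 0
    have pc : p ∈ Car L := hl_car m i1
    have qc : q ∈ Car L := hl_car m i2
    have p0 : 0 ≤ p := hl_nonneg m i1 fun _ _ => le_max_right _ _
    have q0 : 0 ≤ q := hl_nonneg m i2 fun _ _ => le_max_right _ _
    have op : ∀ P, 0 < dg m.A P → p P = max (E P) 0 := fun P k => hl_on m i1 k
    have oq : ∀ P, 0 < dg m.A P → q P = max (-E P) 0 := fun P k => hl_on m i2 k
    have e1 := num_off R m (sub_mem hE (sub_mem pc qc))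
      (R.det_sub dE (R.det_sub (hl_det R m i1) (hl_det R m i2) pc qc) hE (sub_mem pc qc))
      (fun P k => by
        rw [Pi.sub_apply, Pi.sub_apply, op P k, oq P k, max_zero_sub_max_neg_zero_eq_self,
          sub_self]) pc
    rw [R.sub_l (R.isb _ hE) (R.isb _ (sub_mem pc qc)) pc, z p pc,
      R.sub_l (R.isb _ pc) (R.isb _ qc) pc, R.symm q qc p pc] at e1
    have e2 : 0 ≤ I2 p q := I2_disj R qc p0 q0 fun P k k' => by
      have o := (hl_det R m i2).pos m.nn k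
      rw [op P o] at k'
      rw [oq P o]
      exact max_eq_right (neg_nonpos.2 (le_of_not_ge fun e => k' (max_eq_right e)))
    have e3 : I2 p a = 0 := by
      rw [I2_hl R m i1 da]
      exact I2_zero fun P k => h0 P fun e => k (by simp [e])
    have e4 := R.hi0 ha pc h (by rw [R.symm _ ha _ pc, e3]) (by linarith) m.nn.car
    have := zero_on R m (R.isb _ pc) p0 e4.le (h1 P rfl)
    rw [op P (h1 P rfl)] at this
    exact this ▸ le_max_left _ _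
  refine hP (le_antisymm (key E hE dE h0 z) (neg_nonpos.1 (key (-E) (neg_mem hE)
    (fun P k => by rw [R.neg hE, dE P k, neg_zero]) (fun P k => h0 P (neg_ne_zero.1 k))
    fun γ hγ => by rw [R.neg_l (R.isb _ hE) hγ, z γ hγ, neg_zero])))

theorem nd_le (ha : a ∈ Car L) (hE : E ∈ Car L) (h : 0 < I2 a a)
    (h0 : ∀ P, E P ≠ 0 → dg a P = 0) : I2 E E ≤ 0 :=
  R.hi a ha E hE h (by rw [R.symm _ ha _ hE]; exact I2_zero h0)

theorem eq_zero_of (ha : a ∈ Car L) (hE : E ∈ Car L) (h : 0 < I2 a a)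
    (h0 : ∀ P, E P ≠ 0 → dg a P = 0) (k : 0 ≤ I2 E E) : E = 0 :=
  by_contra fun e => (nd R ha hE h h0 e).not_ge k

/-- two classes with the same trace which are orthogonal to the contracted curves are equal -/
theorem det_ext (ha : Nn a) (h : 0 < I2 a a) (hβ : β ∈ Car L) (hγ : γ ∈ Car L) (d1 : Det a β)
    (d2 : Det a γ) (e : ∀ P, 0 < dg a P → β P = γ P) : β = γ := by
  have k : ∀ P, (β - γ) P ≠ 0 → dg a P = 0 := fun P k =>
    ha.zero_of fun o => k (sub_eq_zero.2 (e P o))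
  exact sub_eq_zero.1 (eq_zero_of R ha.car (sub_mem hβ hγ) h k
    (I2_zero fun P o => R.det_sub d1 d2 hβ hγ P (k P o)).ge)

theorem hl_self (m : Nm L) (hβ : β ∈ Car L) (hd : Det m.A β) : hl m β = β :=
  det_ext R m.nn m.pos (hl_car m (R.isb _ hβ)) hβ (hl_det R m (R.isb _ hβ)) hd
    fun _ k => hl_on m (R.isb _ hβ) k

theorem nonneg_of (m : Nm L) (hβ : β ∈ Car L) (hd : Det m.A β)
    (h0 : ∀ P, 0 < dg m.A P → 0 ≤ β P) : 0 ≤ β :=
  hl_self R m hβ hd ▸ hl_nonneg m (R.isb _ hβ) h0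

theorem le_of (m : Nm L) (hβ : β ∈ Car L) (hγ : γ ∈ Car L) (d1 : Det m.A β) (d2 : Det m.A γ)
    (h0 : ∀ P, 0 < dg m.A P → β P ≤ γ P) : β ≤ γ :=
  sub_nonneg.1 (nonneg_of R m (sub_mem hγ hβ) (R.det_sub d2 d1 hγ hβ)
    fun P k => sub_nonneg.2 (h0 P k))

theorem carZ_of (m : Nm L) (hβ : β ∈ Car L) (hd : Det m.A β)
    (h0 : ∀ P, 0 < dg m.A P → ∃ z : ℤ, β P = z) : β ∈ CarZ L :=
  hl_self R m hβ hd ▸ hl_carZ m (R.isb _ hβ) h0

/-- the positive and the negative part on a model -/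
theorem split (m : Nm L) (hβ : β ∈ Car L) (hd : Det m.A β) : ∃ p ∈ Car L, ∃ q ∈ Car L,
    β = p - q ∧ 0 ≤ p ∧ 0 ≤ q ∧ Det m.A p ∧ Det m.A q ∧ 0 ≤ I2 q p ∧
      ∀ P, 0 < dg m.A P → p P = max (β P) 0 ∧ q P = max (-β P) 0 := by
  have i1 := isB_max (R.isb β hβ)
  have i2 := isB_max (isB_neg (R.isb β hβ))
  have pc := hl_car m i1
  have qc := hl_car m i2
  have p0 := hl_nonneg m i1 fun _ _ => le_max_right _ _
  have q0 := hl_nonneg m i2 fun _ _ => le_max_right _ _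
  refine ⟨_, pc, _, qc, det_ext R m.nn m.pos hβ (sub_mem pc qc) hd
    (R.det_sub (hl_det R m i1) (hl_det R m i2) pc qc) fun P k => ?_, p0, q0, hl_det R m i1,
    hl_det R m i2, I2_disj R pc q0 p0 fun P k k' => ?_, fun P k => ⟨hl_on m i1 k, hl_on m i2 k⟩⟩
  · rw [Pi.sub_apply, hl_on m i1 k, hl_on m i2 k]
    exact (max_zero_sub_max_neg_zero_eq_self _).symm
  · have o := (hl_det R m i1).pos m.nn k
    rw [hl_on m i2 o] at k'
    rw [hl_on m i1 o]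
    exact max_eq_right (neg_nonneg.1 (le_of_not_ge fun e => k' (max_eq_right e)))

/-- negativity -/
theorem neg2 (ha : a ∈ Car L) (hβ : β ∈ Car L) (h : 0 < I2 a a)
    (h0 : ∀ P, β P < 0 → dg a P = 0 ∧ dg β P ≤ 0) : 0 ≤ β := by
  obtain ⟨m, -, -, h2⟩ := R.ex ∅ {β, a} finite_empty (toFinite _)
    (by rintro _ (rfl | rfl) <;> assumption)
  have dβ := h2 β (by simp)
  have da := h2 a (by simp)
  obtain ⟨p, pc, q, qc, e, p0, q0, -, -, k, o⟩ := split R m hβ dβ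
  have n : ∀ P, 0 < dg m.A P → q P ≠ 0 → β P < 0 := fun P i j =>
    lt_of_not_ge fun e => j (by rw [(o P i).2, max_eq_right (neg_nonpos.2 e)])
  have e1 : I2 (-q) β ≥ 0 := I2_nonneg' fun P => by
    by_cases i : dg β P = 0
    · simp [i]
    by_cases j : q P = 0
    · simp [j]
    exact mul_nonneg_of_nonpos_of_nonpos (neg_nonpos.2 (q0 P)) (h0 P (n P (dβ.pos m.nn i) j)).2
  rw [R.neg_l (R.isb _ qc) hβ, e, R.sub_r (R.isb _ qc) pc qc] at e1
  have := eq_zero_of R ha qc h (fun P j => by_contra fun i =>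
    i (h0 P (n P (da.pos m.nn i) j)).1) (by linarith)
  rw [e, this, sub_zero]
  exact p0

/-- the trace of a class on a lower model -/
theorem hl_le (m : Nm L) (hβ : β ∈ Car L) (h : ∀ P, dg m.A P = 0 → dg β P ≤ 0) : hl m β ≤ β := by
  have i := R.isb β hβ
  refine sub_nonneg.1 (neg2 R m.nn.car (sub_mem hβ (hl_car m i)) m.pos fun P k => ?_)
  have o : dg m.A P = 0 := m.nn.zero_of fun o => k.ne (sub_eq_zero.2 (hl_on m i o).symm)
  exact ⟨o, by rw [R.sub hβ (hl_car m i), hl_det R m i P o, sub_zero]; exact h P o⟩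

theorem num_iff (ha : a ∈ Car L) : (∀ γ ∈ Car L, I2 a γ = 0) ↔ ∀ P, dg a P = 0 := by
  refine ⟨fun h P => ?_, fun h γ hγ => by rw [R.symm a ha γ hγ]; exact I2_zero fun P _ => h P⟩
  obtain ⟨m, -, h1, h2⟩ := R.ex {P} {a} (finite_singleton P) (toFinite _) (by simpa using ha)
  have c := CarZ.car (m.cZ P (h1 P rfl))
  rw [← I2_c R m (h1 P rfl) (h2 a rfl), R.symm _ c _ ha, h _ c]

/-- a perturbation of a nef and big class -/
theorem numd (hΛ : Nn Λ) (hb : Big Λ) (hβ : β ∈ Car L) (h : ∀ P, dg Λ P = 0 → 0 ≤ dg β P) :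
    ∃ ε : ℝ, 0 < ε ∧ ∀ t, 0 ≤ t → t ≤ ε → Nn (Λ + t • β) := by
  obtain ⟨s, -, h1, -⟩ := Car.exists_mx hβ
  obtain ⟨η, h2, G, hG⟩ := hb s
  have sc := Submodule.smul_mem _ η (mx_mem_Car s)
  have Gc := hG.car (sub_mem hΛ.car sc)
  have ev : ∀ᶠ ε in 𝓝[>] (0 : ℝ), ∀ P ∈ support fun P => G P * dg β P,
      0 ≤ dg Λ P + ε * dg β P := (eventually_all_finite (R.fin (R.isb G Gc) hβ)).2 fun P _ => by
    rcases (hΛ.nn P).eq_or_lt with k | k
    · filter_upwards [self_mem_nhdsWithin] with ε e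
      exact add_nonneg k.le (mul_nonneg (le_of_lt e) (h P k.symm))
    · have c : ContinuousAt (fun ε : ℝ => dg Λ P + ε * dg β P) 0 := by fun_prop
      exact ((c.eventually (lt_mem_nhds (by simpa using k))).filter_mono nhdsWithin_le_nhds).mono
        fun _ e => e.le
  obtain ⟨ε, h3, h4⟩ := (ev.and (Ioc_mem_nhdsGT h2)).exists
  refine ⟨ε, h4.1, fun t t0 t1 => ⟨add_mem hΛ.car (Submodule.smul_mem _ t hβ), fun P => ?_⟩⟩
  rw [R.add_smul hΛ.car hβ]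
  have n := hΛ.nn P
  rcases le_or_gt 0 (dg β P) with k | k
  · positivity
  by_cases j : G P = 0
  · have a1 := R.eff G Gc hG.nonneg P j
    rw [R.congr (sub_mem hΛ.car sc) hG.prn, R.sub hΛ.car sc, R.smul η _ (mx_mem_Car s)] at a1
    have a2 := (R.nn_smp h1).nn P
    rw [R.add _ (mx_mem_Car s) _ hβ] at a2
    nlinarith [h4.2]
  · have := h3 P (mul_ne_zero j k.ne)
    nlinarith

/-- the lemma of Zariski -/
theorem hi00 (ha : a ∈ Car L) (hb : b ∈ Car L) (h : 0 ≤ I2 a a) (hn : ¬ ∀ P, dg a P = 0)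
    (h0 : I2 a b = 0) : I2 b b ≤ 0 ∧
      (I2 b b = 0 → ∃ c : ℝ, c * I2 a a = 0 ∧ ∀ P, dg (b - c • a) P = 0) := by
  rcases h.eq_or_lt with h | h
  · obtain ⟨m, -⟩ := R.ex ∅ ∅ finite_empty finite_empty (empty_subset _)
    have A := m.nn.car
    have iA := R.isb _ A
    have ne : I2 m.A a ≠ 0 := fun e =>
      hn ((num_iff R ha).1 fun γ hγ => R.hi0 A ha m.pos e h.le hγ)
    have hs := Submodule.smul_mem _ (I2 m.A b / I2 m.A a) ha
    have e1 : I2 m.A (b - (I2 m.A b / I2 m.A a) • a) = 0 := by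
      rw [R.sub_r iA hb hs, R.smul_r _ iA ha, div_mul_cancel₀ _ ne, sub_self]
    have e2 : I2 (b - (I2 m.A b / I2 m.A a) • a) (b - (I2 m.A b / I2 m.A a) • a) = I2 b b := by
      rw [R.sub_l (R.isb _ hb) (R.isb _ hs) (sub_mem hb hs), R.smul_l _ (R.isb _ ha) (sub_mem hb hs),
        R.sub_r (R.isb _ hb) hb hs, R.sub_r (R.isb _ ha) hb hs, R.smul_r _ (R.isb _ hb) ha,
        R.smul_r _ (R.isb _ ha) ha, R.symm b hb a ha, h0, ← h]
      ring
    exact ⟨e2 ▸ R.hi _ A _ (sub_mem hb hs) m.pos e1, fun e => ⟨_, by rw [← h, mul_zero],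
      (num_iff R (sub_mem hb hs)).1 fun γ hγ =>
        R.hi0 A (sub_mem hb hs) m.pos e1 (by rw [e2, e]) hγ⟩⟩
  · exact ⟨R.hi a ha b hb h h0, fun e => ⟨0, zero_mul _, by
      rw [zero_smul, sub_zero]
      exact (num_iff R hb).1 fun γ hγ => R.hi0 ha hb h h0 e.ge hγ⟩⟩

end Vale.Agent.P287D.Sh
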