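import Vale.Agent.P287D.Sh.St
import Vale.Agent.P287D.Sh.Bpf
import Vale.Agent.P287D.Sf.Row

/-!
# P287D: the numerical rows of the surface toolbox
-/

set_option linter.unusedVariables false

open Set

noncomputable section

namespace Vale.Agent.P287D.Sh

open Sf

theorem num_dg {L : Type} [Field L] [Algebra ℂ L] (hK : FF L 2) {a : BD L} (ha : a ∈ Car L) :
    Num a ↔ ∀ P, dg a P = 0 := by
  have R := rows hK
  refine ⟨fun h P => le_antisymm ?_ ((R.nn_nef h.1).nn P), fun h =>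
    ⟨nef_of hK ⟨ha, fun P => (h P).ge⟩, nef_of hK ⟨neg_mem ha, fun P => ?_⟩⟩⟩
  · have := (R.nn_nef h.2).nn P
    rw [R.neg ha] at this
    exact neg_nonneg.1 this
  · rw [R.neg ha, h P, neg_zero]

theorem nak : NAK := fun K _ _ hK β hβ h => nef_of hK ⟨hβ, fun P => I2_δ P β ▸ h P⟩

theorem hi0 : HI0 := fun K _ _ hK a ha b hb h hn h0 => by
  obtain ⟨x, y⟩ := hi00 (rows hK) ha hb h (fun c => hn ((num_dg hK ha).2 c)) h0
  refine ⟨x, fun e => ?_⟩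
  obtain ⟨c, c0, c1⟩ := y e
  exact ⟨c, c0, (num_dg hK (sub_mem hb (Submodule.smul_mem _ _ ha))).2 c1⟩

theorem nd_row : ND := fun K _ _ hK a ha E hE h h0 ne =>
  nd (rows hK) ha hE h (fun P q => I2_δ P a ▸ h0 P q) ne

theorem neg2_row : NEG2 := fun K _ _ hK a ha β hβ h h0 =>
  neg2 (rows hK) ha hβ h fun P q => I2_δ P a ▸ I2_δ P β ▸ h0 P q

theorem numd_row : NUMD := fun K _ _ hK Λ β hβ hΛ hb h => by
  have R := rows hK
  obtain ⟨ε, e0, he⟩ := numd R (R.nn_nef hΛ) hb hβ fun P q =>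
    I2_δ P β ▸ h P ((I2_δ P Λ).trans q)
  exact ⟨ε, e0, nef_of hK (he ε e0.le le_rfl)⟩

theorem qf2 : QF2 := fun K _ _ hK Λ Γ hΛ hb d b k => by
  have R := rows hK
  have n := R.nn_smp hΛ
  obtain ⟨hΓ, dΓ⟩ := R.det_dsc d hΛ.car
  have b' : ∀ P, 0 < dg Λ P → dsc 2 Γ P ≤ 0 := fun P q => b P (on_iff.2 q)
  have c' : ∀ P, dg Λ P = 0 → dg Γ P ≤ 0 := fun P q => (dΓ P q).le
  exact ⟨qf_of hK R n hb hΓ k b' c', fun β hβ h => dsc_of hK R n hb hΓ k b' c' hβ fun P q =>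
    I2_δ P β ▸ h P fun o => (on_iff.1 o).ne' q⟩

end Vale.Agent.P287D.Sh
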