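import Vale.Agent.P287D.Sh.Neg
import Vale.Agent.P287D.Sf.Mum

/-!
# P287D: the Zariski decomposition on surfaces
-/

set_option linter.unusedVariables false
set_option linter.unusedSectionVars false

open Set Function Filter Topology

noncomputable section

namespace Vale.Agent.P287D.Sh

open Sf

/-- a symmetric form which is not negative on the orthant has a vector with non negative
products on its support -/
theorem perron {ι : Type} [Fintype ι] (M : ι → ι → ℝ) (hs : ∀ i j, M i j = M j i) {y : ι → ℝ}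
    (y0 : 0 ≤ y) (ne : y ≠ 0) (h : 0 ≤ ∑ i, ∑ j, y i * y j * M i j) :
    ∃ z : ι → ℝ, 0 ≤ z ∧ z ≠ 0 ∧ ∀ i, 0 < z i → 0 ≤ ∑ j, z j * M j i := by
  classical
  let q : (ι → ℝ) → ℝ := fun z => ∑ i, ∑ j, z i * z j * M i j
  have hy : 0 < ∑ i, y i := by
    obtain ⟨i, hi⟩ := Function.ne_iff.1 ne
    exact Finset.sum_pos' (fun j _ => y0 j) ⟨i, Finset.mem_univ i, (y0 i).lt_of_ne' hi⟩
  have m1 : (fun i => (∑ i, y i)⁻¹ * y i) ∈ stdSimplex ℝ ι :=
    ⟨fun i => mul_nonneg (inv_nonneg.2 hy.le) (y0 i), by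
      rw [← Finset.mul_sum, inv_mul_cancel₀ hy.ne']⟩
  obtain ⟨z, hz, mx⟩ := (isCompact_stdSimplex ℝ ι).exists_isMaxOn ⟨_, m1⟩
    (f := q) (by fun_prop)
  have q0 : 0 ≤ q z := by
    refine le_trans ?_ (mx m1)
    have : q (fun i => (∑ i, y i)⁻¹ * y i) =
        (∑ i, y i)⁻¹ * (∑ i, y i)⁻¹ * ∑ i, ∑ j, y i * y j * M i j := by
      simp only [q, Finset.mul_sum]
      exact Finset.sum_congr rfl fun _ _ => Finset.sum_congr rfl fun _ _ => by ring
    rw [this]
    positivity
  refine ⟨z, hz.1, fun e => by simpa [e] using hz.2, fun i hi => ?_⟩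
  set b := ∑ j, z j * M j i
  have ex : ∀ t : ℝ, q (fun j => (1 + t) * z j - if j = i then t else 0) =
      (1 + t) ^ 2 * q z - 2 * t * (1 + t) * b + t ^ 2 * M i i := fun t => by
    have e1 : ∀ j k, ((1 + t) * z j - if j = i then t else 0) *
        ((1 + t) * z k - if k = i then t else 0) * M j k =
        (1 + t) ^ 2 * (z j * z k * M j k) - (if k = i then t * (1 + t) * (z j * M j i) else 0) -
        (if j = i then t * (1 + t) * (z k * M k i) else 0) +
        if k = i then (if j = i then t ^ 2 * M i i else 0) else 0 := fun j k => by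
      by_cases a : j = i <;> by_cases c : k = i <;> simp only [a, c, if_true, if_false]
      · ring
      · rw [hs k i]; ring
      · ring
      · ring
    simp only [q, e1, Finset.sum_add_distrib, Finset.sum_sub_distrib, Finset.sum_ite_eq',
      Finset.mem_univ, if_true, ← Finset.mul_sum]
    rw [Finset.sum_comm (f := fun j k => if j = i then t * (1 + t) * (z k * M k i) else 0)]
    simp only [Finset.sum_ite_eq', Finset.mem_univ, if_true, ← Finset.mul_sum]
    ring
  by_contra hb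
  have c : ContinuousAt (fun t : ℝ => (2 + t) * q z - 2 * (1 + t) * b + t * M i i) 0 := by fun_prop
  obtain ⟨t, t1, t2⟩ := (((c.eventually (lt_mem_nhds (a := 0) (by
    simp only [add_zero, mul_one, zero_mul]; linarith [not_le.1 hb]))).filter_mono
      nhdsWithin_le_nhds).and (Ioc_mem_nhdsGT hi)).exists
  have m2 : (fun j => (1 + t) * z j - if j = i then t else 0) ∈ stdSimplex ℝ ι :=
    ⟨fun j => by
      have := hz.1 j
      dsimp only
      split_ifs with a
      · subst a; nlinarith [t2.1, t2.2]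
      · nlinarith [t2.1], by
      rw [Finset.sum_sub_distrib, ← Finset.mul_sum, hz.2]; simp⟩
  have := mx m2
  rw [mem_ofPred_eq, ex] at this
  nlinarith [mul_pos t2.1 t1]

variable {L : Type} [Field L] [Algebra ℂ L] {Z β γ N a b G Λ E F : BD L} {P Q : Pl L}

/-- the numerical part of a Zariski decomposition -/
structure Zn (β N : BD L) : Prop where
  car : N ∈ Car L
  nn : 0 ≤ N
  nef : Nn (β - N)
  le : ∀ F ∈ Car L, 0 ≤ F → Nn (β - F) → N ≤ F

variable (R : Rows L)
include R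

theorem nn_push (m : Nm L) (hβ : β ∈ Car L) (hd : Det m.A β) (hF : F ∈ Car L)
    (h : Nn (β - F)) : Nn (β - hl m F) ∧ hl m F ≤ F := by
  have i := R.isb F hF
  have l := hl_le R m hF fun P k => by
    have := h.nn P
    rw [R.sub hβ hF, hd P k] at this
    linarith
  refine ⟨⟨sub_mem hβ (hl_car m i), fun P => ?_⟩, l⟩
  rcases (m.nn.nn P).eq_or_lt with k | k
  · exact (R.det_sub hd (hl_det R m i) hβ (hl_car m i) P k.symm).ge
  · have a1 := R.eff _ (sub_mem hF (hl_car m i)) (sub_nonneg.2 l) P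
      (sub_eq_zero.2 (hl_on m i k).symm)
    have a2 := h.nn P
    rw [R.sub hF (hl_car m i)] at a1
    rw [R.sub hβ hF] at a2
    rw [R.sub hβ (hl_car m i)]
    linarith

theorem nn_min (m : Nm L) (hβ : β ∈ Car L) (hd : Det m.A β) (hE : E ∈ Car L) (hF : F ∈ Car L)
    (dE : Det m.A E) (dF : Det m.A F) (h : Nn (β - E)) (h' : Nn (β - F)) (hG : G ∈ Car L)
    (dG : Det m.A G) (e : ∀ P, 0 < dg m.A P → G P = min (E P) (F P)) : Nn (β - G) := by
  have key : ∀ E ∈ Car L, Det m.A E → Nn (β - E) → (∀ P, 0 < dg m.A P → G P ≤ E P) →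
      ∀ P, G P = E P → 0 ≤ dg (β - G) P := fun E hE dE h l P k => by
    have a1 := R.eff _ (sub_mem hE hG) (sub_nonneg.2 (le_of R m hG hE dG dE l)) P
      (sub_eq_zero.2 k.symm)
    have a2 := h.nn P
    rw [R.sub hE hG] at a1
    rw [R.sub hβ hE] at a2
    rw [R.sub hβ hG]
    linarith
  refine ⟨sub_mem hβ hG, fun P => ?_⟩
  rcases (m.nn.nn P).eq_or_lt with k | k
  · exact (R.det_sub hd dG hβ hG P k.symm).ge
  · rcases le_total (E P) (F P) with l | l
    · exact key E hE dE h (fun P k => e P k ▸ min_le_left _ _) P (by rw [e P k, min_eq_left l])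
    · exact key F hF dF h' (fun P k => e P k ▸ min_le_right _ _) P (by rw [e P k, min_eq_right l])

/-- existence -/
theorem exists_zn (hβ : β ∈ Car L) (hG : G ∈ Car L) (G0 : 0 ≤ G) (h : Nn (β - G)) :
    ∃ N, Zn β N := by
  classical
  obtain ⟨m, dβ, dG⟩ := R.ex2 hβ hG
  obtain ⟨T, hT, eG⟩ := hl_ex m (R.isb G hG)
  rw [hl_self R m hG dG] at eG
  have U : ∀ P ∈ T, 0 < dg m.A P := fun P k => ((hT P).1 k).1
  let S : Set (Pl L → ℝ) := Icc 0 (fun P => if P ∈ T then G P else 0) ∩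
    ⋂ Q, {x | 0 ≤ dg β Q - ∑ P ∈ T, x P * dg (m.c P) Q}
  have mS : ∀ x, x ∈ S ↔ (0 ≤ x ∧ x ≤ fun P => if P ∈ T then G P else 0) ∧ Nn (β - m.cm T x) :=
    fun x => and_congr Iff.rfl (by
      simp only [mem_iInter, mem_ofPred_eq, ← m.dg_cm R x U, ← R.sub hβ (m.cm_car R x U)]
      exact ⟨fun k => ⟨sub_mem hβ (m.cm_car R x U), k⟩, fun k => k.nn⟩)
  have cS : IsCompact S := isCompact_Icc.inter_right
    (isClosed_iInter fun Q => isClosed_le continuous_const (by fun_prop))
  have e0 : m.cm T (fun P => if P ∈ T then G P else 0) = G :=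
    (Finset.sum_congr rfl fun P k => by simp only [if_pos k]).trans eG.symm
  obtain ⟨x, hx, mn⟩ := cS.exists_isMinOn ⟨_, (mS _).2 ⟨⟨fun P => by
    dsimp only; split_ifs; exacts [G0 P, le_rfl], le_rfl⟩, e0.symm ▸ h⟩⟩
    (f := fun x => ∑ P ∈ T, x P) (by fun_prop)
  obtain ⟨⟨x0, x1⟩, x2⟩ := (mS x).1 hx
  have Nc := m.cm_car R x U
  have dN := m.cm_det R x U
  refine ⟨m.cm T x, Nc, Finset.sum_nonneg fun P k => smul_nonneg (x0 P) (m.c0 P (U P k)), x2,
    fun F hF F0 k => ?_⟩
  obtain ⟨k1, k2⟩ := nn_push R m hβ dβ hF k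
  have i := R.isb F hF
  refine le_trans (le_of R m Nc (hl_car m i) dN (hl_det R m i) fun P o => ?_) k2
  rw [hl_on m i o]
  by_cases hP : P ∈ T
  swap
  · rw [m.cm_of_not R x U o hP]; exact F0 P
  have a1 : (fun P => min (x P) (F P)) ∈ S := (mS _).2 ⟨⟨fun P => le_min (x0 P) (F0 P),
    fun P => (min_le_left _ _).trans (x1 P)⟩, nn_min R m hβ dβ Nc (hl_car m i) dN (hl_det R m i) x2
      k1 (m.cm_car R _ U) (m.cm_det R _ U) fun P o => by
        rw [hl_on m i o]
        by_cases hP : P ∈ T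
        · rw [m.cm_of_mem R _ U hP, m.cm_of_mem R _ U hP]
        · rw [m.cm_of_not R _ U o hP, m.cm_of_not R _ U o hP]
          exact (min_eq_left (F0 P)).symm⟩
  have a2 := (Finset.sum_eq_sum_iff_of_le (s := T) (f := fun P => min (x P) (F P)) (g := x)
    fun P _ => min_le_left _ _).1 (le_antisymm (Finset.sum_le_sum fun P _ => min_le_left _ _)
      (mn a1)) P hP
  rw [m.cm_of_mem R x U hP, ← a2]
  exact min_le_right _ _

theorem Zn.det (h : Zn β N) (hβ : β ∈ Car L) (m : Nm L) (hd : Det m.A β) : Det m.A N := by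
  have i := R.isb N h.car
  obtain ⟨k1, k2⟩ := nn_push R m hβ hd h.car h.nef
  exact le_antisymm (h.le _ (hl_car m i) (hl_nonneg m i fun P _ => h.nn P) k1) k2 ▸ hl_det R m i

/-- no effective class with support in the negative part can be added to the positive part -/
theorem Zn.not_add (h : Zn β N) (hβ : β ∈ Car L) (m : Nm L) (hd : Det m.A β) (hE : E ∈ Car L)
    (dE : Det m.A E) (E0 : 0 ≤ E) (hs : ∀ P, 0 < dg m.A P → E P ≠ 0 → N P ≠ 0)
    (k : ∀ P, 0 < dg m.A P → E P ≠ 0 → dg (β - N) P = 0 → 0 ≤ dg E P) : E = 0 := by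
  have f := m.fin E (R.isb E hE)
  have ev : ∀ᶠ ε in 𝓝[>] (0 : ℝ), ∀ P ∈ {P | 0 < dg m.A P ∧ E P ≠ 0},
      ε * E P ≤ N P ∧ 0 ≤ dg (β - N) P + ε * dg E P := (eventually_all_finite f).2 fun P hP => by
    refine Eventually.and ?_ ?_
    · have c : ContinuousAt (fun ε : ℝ => ε * E P) 0 := by fun_prop
      exact ((c.eventually (gt_mem_nhds (by
        simpa using (h.nn P).lt_of_ne' (hs P hP.1 hP.2)))).filter_mono nhdsWithin_le_nhds).mono
          fun _ e => e.le
    · rcases (h.nef.nn P).eq_or_lt with o | o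
      · filter_upwards [self_mem_nhdsWithin] with ε e
        exact add_nonneg o.le (mul_nonneg (le_of_lt e) (k P hP.1 hP.2 o.symm))
      · have c : ContinuousAt (fun ε : ℝ => dg (β - N) P + ε * dg E P) 0 := by fun_prop
        exact ((c.eventually (lt_mem_nhds (by simpa using o))).filter_mono nhdsWithin_le_nhds).mono
          fun _ e => e.le
  obtain ⟨ε, h1, h2⟩ := (ev.and self_mem_nhdsWithin).exists
  have h2' : 0 < ε := h2
  have sc := Submodule.smul_mem _ ε hE
  have dN := h.det R hβ m hd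
  have e : β - (N - ε • E) = β - N + ε • E := by abel
  have := h.le (N - ε • E) (sub_mem h.car sc) (sub_nonneg.2 (le_of R m sc h.car
    (R.det_smul ε dE hE) dN fun P o => by
      by_cases j : E P = 0
      · simpa [j] using h.nn P
      · exact (h1 P ⟨o, j⟩).1)) (e ▸ ⟨add_mem h.nef.car sc, fun P => by
    rw [R.add_smul h.nef.car hE]
    rcases (m.nn.nn P).eq_or_lt with o | o
    · rw [dE P o.symm, mul_zero, add_zero]; exact h.nef.nn P
    by_cases j : E P = 0
    · exact add_nonneg (h.nef.nn P) (mul_nonneg h2'.le (R.eff E hE E0 P j))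
    · exact (h1 P ⟨o, j⟩).2⟩)
  refine funext fun P => le_antisymm ?_ (E0 P)
  have := this P
  rw [Pi.sub_apply, Pi.smul_apply, smul_eq_mul] at this
  exact nonpos_of_mul_nonpos_right (by linarith) h2'

theorem Zn.orth (h : Zn β N) (hβ : β ∈ Car L) (hP : N P ≠ 0) : dg (β - N) P = 0 := by
  obtain ⟨m, o, dβ, -⟩ := R.ex1 hβ hβ P
  by_contra k
  have := h.not_add R hβ m dβ (m.car o) (m.cd P o) (m.c0 P o) (fun Q i j => by
    rw [m.cδ P Q o i] at j
    rwa [not_not.1 fun e => j (Pl.δ_ne e)]) fun Q i j l => by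
      rw [m.cδ P Q o i] at j
      exact absurd (not_not.1 (fun e => j (Pl.δ_ne e)) ▸ l) k
  have e := m.c_self o
  rw [this] at e
  exact zero_ne_one e

theorem Zn.nd (h : Zn β N) (hβ : β ∈ Car L) (hE : E ∈ Car L) (hs : ∀ P, E P ≠ 0 → N P ≠ 0)
    (ne : E ≠ 0) : I2 E E < 0 := by
  classical
  obtain ⟨m, dβ, dE⟩ := R.ex2 hβ hE
  obtain ⟨p, pc, q, qc, e, p0, q0, dp, dq, k, o⟩ := split R m hE dE
  by_contra c
  have hF := add_mem pc qc
  have dF := R.det_add dp dq pc qc
  have F2 : 0 ≤ I2 (p + q) (p + q) := by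
    rw [e, R.sub_l (R.isb _ pc) (R.isb _ qc) (sub_mem pc qc), R.sub_r (R.isb _ pc) pc qc,
      R.sub_r (R.isb _ qc) pc qc, R.symm p pc q qc] at c
    rw [R.add_l (R.isb _ pc) (R.isb _ qc) hF, R.add_r (R.isb _ pc) pc qc,
      R.add_r (R.isb _ qc) pc qc, R.symm p pc q qc]
    linarith [not_lt.1 c]
  obtain ⟨T, hT, eF⟩ := hl_ex m (R.isb _ hF)
  rw [hl_self R m hF dF] at eF
  have U : ∀ P ∈ T, 0 < dg m.A P := fun P k => ((hT P).1 k).1
  obtain ⟨z, z0, z1, z2⟩ := perron (ι := T) (fun i j => dg (m.c i) j)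
    (fun i j => m.symm R (U i i.2) (U j j.2)) (y := fun i => (p + q) i)
    (fun i => add_nonneg (p0 i) (q0 i)) (fun y => ne (by
      have : p + q = 0 := by
        rw [eF]
        exact Finset.sum_eq_zero fun P j => by rw [congrFun y ⟨P, j⟩, Pi.zero_apply, zero_smul]
      obtain ⟨a, b⟩ := (add_eq_zero_iff_of_nonneg p0 q0).1 this
      rw [e, a, b, sub_zero])) (by
      have a : I2 (p + q) (p + q) = ∑ j ∈ T, (p + q) j * dg (p + q) j :=
        (congrArg (fun x => I2 x (p + q)) eF).trans (m.I2_cm R _ U hF dF)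
      have b : ∀ j, dg (p + q) j = ∑ i ∈ T, (p + q) i * dg (m.c i) j := fun j =>
        (congrArg (fun x => dg x j) eF).trans (m.dg_cm R _ U j)
      rw [a] at F2
      simp only [b, Finset.mul_sum] at F2
      rw [Finset.sum_comm, ← Finset.sum_coe_sort T] at F2
      refine F2.trans_eq (Finset.sum_congr rfl fun i _ => ?_)
      rw [← Finset.sum_coe_sort T]
      exact Finset.sum_congr rfl fun j _ => by ring)
  let x : Pl L → ℝ := fun P => if j : P ∈ T then z ⟨P, j⟩ else 0
  have x0 : ∀ P, 0 ≤ x P := fun P => by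
    dsimp only [x]; split_ifs; exacts [z0 _, le_rfl]
  have mem : ∀ P, 0 < dg m.A P → m.cm T x P ≠ 0 → P ∈ T := fun P i j =>
    by_contra fun n => j (m.cm_of_not R x U i n)
  have := h.not_add R hβ m dβ (m.cm_car R x U) (m.cm_det R x U)
    (Finset.sum_nonneg fun P k => smul_nonneg (x0 P) (m.c0 P (U P k))) (fun P i j => hs P fun n =>
      ((hT P).1 (mem P i j)).2 (by rw [Pi.add_apply, (o P i).1, (o P i).2, n]; simp))
    fun P i j _ => by
      have t := mem P i j
      rw [m.cm_of_mem R x U t] at j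
      rw [m.dg_cm R x U, ← Finset.sum_coe_sort T]
      refine (z2 ⟨P, t⟩ ((z0 _).lt_of_ne' fun n => j (by simp [x, t, n]))).trans_eq
        (Finset.sum_congr rfl fun i _ => by simp [x])
  refine z1 (funext fun i => ?_)
  have a := m.cm_of_mem R x U i.2
  rw [this] at a
  simpa [x] using a.symm

theorem Zn.fix (h : Zn β N) (hβ : β ∈ Car L) (hG : Rep β G) : N ≤ G :=
  have p : β - G ∈ Prn L := by simpa using neg_mem hG.prn
  h.le G (hG.car hβ) hG.nonneg ⟨Prn_le_Car p, fun P => (R.prn _ p P).ge⟩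

theorem Zn.rat (h : Zn β N) (hβ : CarQ β) : CarQ N := by
  classical
  obtain ⟨m, dβ, -⟩ := R.ex2 hβ.car hβ.car
  have dN := h.det R hβ.car m dβ
  obtain ⟨T, hT, eN⟩ := hl_ex m (R.isb _ h.car)
  rw [hl_self R m h.car dN] at eN
  have U : ∀ P ∈ T, 0 < dg m.A P := fun P k => ((hT P).1 k).1
  have inj : ∀ x : Pl L → ℝ, (∀ Q ∈ T, dg (m.cm T x) Q = 0) → ∀ Q ∈ T, x Q = 0 := by
    intro x k Q hQ
    have z : m.cm T x = 0 := by_contra fun n => (h.nd R hβ.car (m.cm_car R x U) (fun P j i => j (by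
      have a : ∀ Q ∈ T, m.c Q P = 0 := by
        have b := congrFun eN P
        rw [i, Finset.sum_apply] at b
        intro Q hQ
        have := (Finset.sum_eq_zero_iff_of_nonneg fun Q hQ =>
          smul_nonneg (h.nn Q) (m.c0 Q (U Q hQ)) P).1 b.symm Q hQ
        exact (mul_eq_zero.1 this).resolve_left ((hT Q).1 hQ).2
      rw [Nm.cm, Finset.sum_apply]
      exact Finset.sum_eq_zero fun Q hQ => by rw [Pi.smul_apply, a Q hQ, smul_zero])) n).ne (by
        rw [m.I2_cm R x U (m.cm_car R x U) (m.cm_det R x U)]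
        exact Finset.sum_eq_zero fun Q hQ => by rw [k Q hQ, mul_zero])
    rw [← m.cm_of_mem R x U hQ, z, Pi.zero_apply]
  choose! w hw using fun P (k : P ∈ T) Q => R.int _ (m.cZ P (U P k)) Q
  obtain ⟨n, n0, hn⟩ := id hβ
  choose v hv using R.int _ hn
  let M : Matrix T T ℚ := fun Q P => w P Q
  let ex : (T → ℚ) → Pl L → ℝ := fun y P => if k : P ∈ T then y ⟨P, k⟩ else 0
  have e1 : ∀ y (Q : T), dg (m.cm T (ex y)) Q = (M.mulVecLin y Q : ℚ) := fun y Q => by
    rw [m.dg_cm R _ U, ← Finset.sum_coe_sort T, Matrix.mulVecLin_apply, Matrix.mulVec, dotProduct]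
    push_cast
    exact Finset.sum_congr rfl fun P _ => by simp [ex, M, hw P P.2, mul_comm]
  have i1 : Injective M.mulVecLin := (injective_iff_map_eq_zero _).2 fun y hy => funext fun Q => by
    have := inj (ex y) (fun Q k => by rw [e1 y ⟨Q, k⟩, hy]; simp) Q Q.2
    simpa [ex] using this
  obtain ⟨y, hy⟩ := LinearMap.injective_iff_surjective.1 i1 fun Q => (v Q : ℚ) / n
  have e2 := inj (fun P => N P - ex y P) fun Q k => by
    have a := h.orth R hβ.car ((hT Q).1 k).2
    have b := hv Q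
    have c : dg N Q = ∑ i ∈ T, N i * dg (m.c i) Q :=
      (congrArg (fun x => dg x Q) eN).trans (m.dg_cm R _ U Q)
    have d := e1 y ⟨Q, k⟩
    rw [R.sub hβ.car h.car] at a
    rw [R.smul _ _ hβ.car] at b
    rw [hy, m.dg_cm R _ U] at d
    rw [m.dg_cm R _ U]
    simp only [sub_mul, Finset.sum_sub_distrib]
    rw [← c, d]
    have n1 : (n : ℝ) ≠ 0 := by exact_mod_cast n0.ne'
    push_cast
    rw [← b, mul_div_cancel_left₀ _ n1]
    linarith
  rw [eN]
  refine CarQ.sum T fun P k => ?_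
  rw [sub_eq_zero.1 (e2 P k)]
  simp only [ex, dif_pos k]
  exact (CarZ.carQ (m.cZ P (U P k))).qsmul _

theorem zn_eff (hβ : β ∈ Car L) (h : Eff β) : ∃ N, Zn β N :=
  let ⟨G, hG⟩ := h
  have p : β - G ∈ Prn L := by simpa using neg_mem hG.prn
  exists_zn R hβ (hG.car hβ) hG.nonneg ⟨Prn_le_Car p, fun P => (R.prn _ p P).ge⟩

theorem Zn.uniq (h : Zn β N) (h' : Zn β G) : N = G :=
  le_antisymm (h.le G h'.car h'.nn h'.nef) (h'.le N h.car h.nn h.nef)

/-- the negative part is characterised by orthogonality and negative definiteness -/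
theorem zn_of (hβ : β ∈ Car L) (hN : N ∈ Car L) (N0 : 0 ≤ N) (h : Nn (β - N))
    (o : ∀ P, N P ≠ 0 → dg (β - N) P = 0)
    (nd : ∀ E ∈ Car L, (∀ P, E P ≠ 0 → N P ≠ 0) → E ≠ 0 → I2 E E < 0) : Zn β N := by
  obtain ⟨G, hG⟩ := exists_zn R hβ hN N0 h
  have l := hG.le N hN N0 h
  have c := sub_mem hN hG.car
  have s : ∀ P, (N - G) P ≠ 0 → N P ≠ 0 := fun P k e => k (by
    have a := l P
    have b := hG.nn P
    rw [Pi.zero_apply] at b
    rw [Pi.sub_apply]
    linarith)
  have : N - G = 0 := by_contra fun n => (nd _ c s n).not_ge (I2_nonneg' fun P => by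
    by_cases k : (N - G) P = 0
    · simp [k]
    have a := o P (s P k)
    have b := hG.nef.nn P
    rw [R.sub hβ hN] at a
    rw [R.sub hβ hG.car] at b
    rw [R.sub hN hG.car]
    exact mul_nonneg (sub_nonneg.2 l P) (by linarith))
  exact (sub_eq_zero.1 this).symm ▸ hG

end Vale.Agent.P287D.Sh
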